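import Vale.Agent.P216.Bdl.B1

open Bundle Manifold Vale.Agent.P216
open scoped ContDiff

namespace Vale.Agent.Results.P216.LengthFunction

theorem result {E : Type*} [NormedAddCommGroup E] [NormedSpace ℝ E] [FiniteDimensional ℝ E]
    {M : Type*} [MetricSpace M] [CompactSpace M] [ChartedSpace E M] [IsManifold 𝓘(ℝ, E) ∞ M]
    [RiemannianBundle (fun x : M => TangentSpace 𝓘(ℝ, E) x)]
    [IsContMDiffRiemannianBundle 𝓘(ℝ, E) ∞ E (fun x : M => TangentSpace 𝓘(ℝ, E) x)]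
    [IsRiemannianManifold 𝓘(ℝ, E) M]
    (x₀ : M) (H : Subgroup (FundamentalGroup M x₀)) [H.FiniteIndex]
    (hH :
      (∃ (τ : H → ℝ) (g h : H) (G : Type) (_ : Group G) (_ : Finite G) (q : H →* G),
        (∀ x y, τ (x * y * x⁻¹) = τ y) ∧ (∀ x (n : ℤ), τ (x ^ n) = |(n : ℝ)| * τ x) ∧
        0 < τ g ∧ (∀ m : ℕ, 0 < m → τ (g ^ m * h) = m * τ g) ∧ q h ≠ 1) ∨
      (∀ r : ℕ, ∃ (G : Type) (_ : Group G) (_ : Finite G) (q : H →* G), Function.Surjective q ∧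
        ∀ a : Fin r → G, ∃ y : G, ∀ (i : Fin r) (k : ℤ), ¬ IsConj y (a i ^ k))) :
    (primeClosedGeodesicImages M).Infinite := by
  intro hfin
  have hc := (finitelyCyclicallyCovered_fundamentalGroup E M x₀ hfin).subgroup H
  rcases hH with ⟨τ, g, h, G, _, _, q, h1, h2, h3, h4, h5⟩ | h
  · exact h5 (hc.length_apply_eq_one τ h1 h2 h3 h4 q)
  · obtain ⟨r, hr⟩ := hc.exists_bound
    obtain ⟨G, _, _, q, hq, hG⟩ := h r
    obtain ⟨a, ha⟩ := hr q hq
    obtain ⟨y, hy⟩ := hG a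
    obtain ⟨i, k, hik⟩ := ha y
    exact hy i k hik

end Vale.Agent.Results.P216.LengthFunction
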